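import Vale.Agent.P141.PL.H315.ConcreteProc

/-! Normalised form of the process on `ℤ³`: everything in terms of averages over cubes. -/

namespace Vale.Agent.P141.PL.H315

noncomputable section

open scoped BigOperators NNReal
open Vale.Agent.P141.H315

/-- The product weight on the cube of scale `k` of `p` (normalised). -/
def wN (δ e : ℝ) (k : ℕ) (p : ℤ × ℤ × ℤ) (u : Tri) : ℝ :=
  δ * (Nm e (cube3 k p) (e12 u.1) * Nm e (cube3 k p) (e13 u.2.1) * Nm e (cube3 k p) (e23 u.2.2))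

theorem card_cube3_pos (k : ℕ) (p : ℤ × ℤ × ℤ) : (0 : ℝ) < (cube3 k p).card := by
  rw [card_cube3]; positivity

theorem wt_eq (δ e : ℝ) (k : ℕ) (p : ℤ × ℤ × ℤ) (u : Tri) :
    wt δ e (cube3 k p) u = (cube3 k p).card * wN δ e k p u := by
  unfold wt wN; ring

theorem dot_eq_avg (k : ℕ) (p : ℤ × ℤ × ℤ) (f g : ℤ × ℤ × ℤ → ℝ) :
    dot (cube3 k p) f g = (cube3 k p).card * avg (cube3 k p) (fun q => f q * g q) := by
  have := card_cube3_pos k p
  unfold dot avg
  field_simp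

/-- the edge norm only depends on the square -/
theorem Nm_e12 (e : ℝ) (k : ℕ) (p : ℤ × ℤ × ℤ) (u : ℤ × ℤ → ℝ) :
    Nm e (cube3 k p) (e12 u) = Nm e (iv k p.1 ×ˢ iv k p.2.1) u := by
  have h : mx (cube3 k p) (e12 u) = mx (iv k p.1 ×ˢ iv k p.2.1) u := by
    apply le_antisymm
    · refine mx_le (mx_nonneg _ _) fun q hq => ?_
      rw [mem_cube3] at hq
      have hm : (q.1, q.2.1) ∈ iv k p.1 ×ˢ iv k p.2.1 := Finset.mem_product.mpr ⟨hq.1, hq.2.1⟩
      exact abs_le_mx hm u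
    · refine mx_le (mx_nonneg _ _) fun q hq => ?_
      rw [Finset.mem_product] at hq
      have : (q.1, q.2, p.2.2) ∈ cube3 k p := mem_cube3.mpr ⟨hq.1, hq.2, self_mem_iv _ _⟩
      exact abs_le_mx this (e12 u)
  unfold Nm
  rw [h, avg_e12]; rfl

theorem Nm_e13 (e : ℝ) (k : ℕ) (p : ℤ × ℤ × ℤ) (u : ℤ × ℤ → ℝ) :
    Nm e (cube3 k p) (e13 u) = Nm e (iv k p.1 ×ˢ iv k p.2.2) u := by
  have h : mx (cube3 k p) (e13 u) = mx (iv k p.1 ×ˢ iv k p.2.2) u := by
    apply le_antisymm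
    · refine mx_le (mx_nonneg _ _) fun q hq => ?_
      rw [mem_cube3] at hq
      have hm : (q.1, q.2.2) ∈ iv k p.1 ×ˢ iv k p.2.2 := Finset.mem_product.mpr ⟨hq.1, hq.2.2⟩
      exact abs_le_mx hm u
    · refine mx_le (mx_nonneg _ _) fun q hq => ?_
      rw [Finset.mem_product] at hq
      have : (q.1, p.2.1, q.2) ∈ cube3 k p := mem_cube3.mpr ⟨hq.1, self_mem_iv _ _, hq.2⟩
      exact abs_le_mx this (e13 u)
  unfold Nm
  rw [h, avg_e13]; rfl

theorem Nm_e23 (e : ℝ) (k : ℕ) (p : ℤ × ℤ × ℤ) (u : ℤ × ℤ → ℝ) :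
    Nm e (cube3 k p) (e23 u) = Nm e (iv k p.2.1 ×ˢ iv k p.2.2) u := by
  have h : mx (cube3 k p) (e23 u) = mx (iv k p.2.1 ×ˢ iv k p.2.2) u := by
    apply le_antisymm
    · refine mx_le (mx_nonneg _ _) fun q hq => ?_
      rw [mem_cube3] at hq
      have hm : (q.2.1, q.2.2) ∈ iv k p.2.1 ×ˢ iv k p.2.2 := Finset.mem_product.mpr ⟨hq.2.1, hq.2.2⟩
      exact abs_le_mx hm u
    · refine mx_le (mx_nonneg _ _) fun q hq => ?_
      rw [Finset.mem_product] at hq
      have : (p.1, q.1, q.2) ∈ cube3 k p := mem_cube3.mpr ⟨self_mem_iv _ _, hq.1, hq.2⟩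
      exact abs_le_mx this (e23 u)
  unfold Nm
  rw [h, avg_e23]; rfl

/-- **Block B1.** For all `δ > 0`, `0 ≤ e ≤ 1`, `n` and `F` there is a births-only process. -/
theorem exists_process {δ e : ℝ} (hδ : 0 < δ) (h0 : 0 ≤ e) (h1 : e ≤ 1) (n : ℕ)
    (F : ℤ × ℤ × ℤ → ℝ) : Nonempty (Proc (sys δ e hδ h0 h1) n F) := exists_proc _ n F

section

variable {δ e : ℝ} {hδ : 0 < δ} {h0 : 0 ≤ e} {h1 : e ≤ 1} {n : ℕ} {F : ℤ × ℤ × ℤ → ℝ}
  (P : Proc (sys δ e hδ h0 h1) n F)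
include P

/-- (i) uniformity on every cube of scale `≥ k` -/
theorem unif_avg {k l : ℕ} (hk : k ≤ n) (hl : k ≤ l) (p : ℤ × ℤ × ℤ) (u : Tri) :
    |avg (cube3 l p) (fun q => P.G k q * atm u q)| ≤ wN δ e l p u := by
  have h := P.unif_coarse hk hl p u
  have hc := card_cube3_pos l p
  have h2 : |((cube3 l p).card : ℝ) * avg (cube3 l p) (fun q => P.G k q * atm u q)| ≤
      (cube3 l p).card * wN δ e l p u := by
    rw [← dot_eq_avg, ← wt_eq]; exact h
  rw [abs_mul, abs_of_pos hc] at h2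
  exact le_of_mul_le_mul_left h2 hc

/-- (ii) window inequality on every cube of scale `≥ l` -/
theorem window_avg {k l l' : ℕ} (hkl : k ≤ l) (hl : l ≤ n + 1) (hll : l ≤ l') (p : ℤ × ℤ × ℤ) :
    avg (cube3 l' p) (fun q => (P.G l q - P.G k q) ^ 2) ≤
      3 * (avg (cube3 l' p) (fun q => P.G l q ^ 2) - avg (cube3 l' p) (fun q => P.G k q ^ 2)) := by
  have h := P.window hkl hl hll p
  have hc := card_cube3_pos l' p
  have e1 : ∀ f : ℤ × ℤ × ℤ → ℝ, dot (gz.cube l' p) f f =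
      (cube3 l' p).card * avg (cube3 l' p) (fun q => f q ^ 2) := by
    intro f
    have := dot_eq_avg l' p f f
    simp only [← pow_two] at this
    exact this
  rw [e1, e1, e1] at h
  have h2 : ((cube3 l' p).card : ℝ) * avg (cube3 l' p) (fun q => (P.G l - P.G k) q ^ 2) ≤
      (cube3 l' p).card * (3 * (avg (cube3 l' p) (fun q => P.G l q ^ 2) -
        avg (cube3 l' p) (fun q => P.G k q ^ 2))) := by linarith
  exact le_of_mul_le_mul_left h2 hc

/-- monotonicity of the energy -/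
theorem energy_avg {k l l' : ℕ} (hkl : k ≤ l) (hl : l ≤ n + 1) (hll : l ≤ l') (p : ℤ × ℤ × ℤ) :
    avg (cube3 l' p) (fun q => P.G k q ^ 2) ≤ avg (cube3 l' p) (fun q => P.G l q ^ 2) := by
  have h := window_avg P hkl hl hll p
  have h2 : 0 ≤ avg (cube3 l' p) (fun q => (P.G l q - P.G k q) ^ 2) :=
    avg_nonneg fun _ _ => sq_nonneg _
  linarith

/-- (iii) zero set -/
theorem G_zero {k l' : ℕ} (hk : k ≤ n + 1) (hll : n ≤ l') (p : ℤ × ℤ × ℤ)
    (hF : ∀ q ∈ cube3 l' p, F q = 0) : ∀ q ∈ cube3 l' p, P.G k q = 0 :=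
  P.G_eq_zero hk hll p hF

/-- (iv) **cost accounting**, normalised: `c k q u` is the cost of the atom `u` on the node
`cube3 k q` (a density, constant on the node if one likes). -/
theorem cost_avg (c : ℕ → ℤ × ℤ × ℤ → Tri → ℝ) {P0 : ℝ} (hP0 : 0 ≤ P0)
    (h : ∀ j ≤ n, ∀ p u, ∑ k ∈ Finset.range (j + 1), avg (cube3 j p) (fun q => c k q u) ≤
      P0 * wN δ e j p u) {l' : ℕ} (hll : n ≤ l') (p : ℤ × ℤ × ℤ) :
    ∑ k ∈ Finset.range (n + 1), avg (cube3 l' p) (fun q => ∑ j ∈ Finset.Ico k (n + 1),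
      ((P.B j (cube3 j q)).sum fun u b => |b| * c k q u)) ≤
        P0 * avg (cube3 l' p) (fun q => F q ^ 2) := by
  have hc := card_cube3_pos l' p
  have key := P.cost_le c P0 (fun j hj y u => by
    have hcj := card_cube3_pos j y
    have h2 := h j hj y u
    have e1 : ∑ k ∈ Finset.range (j + 1), ∑ z ∈ gz.cube j y, c k z u =
        (cube3 j y).card * ∑ k ∈ Finset.range (j + 1), avg (cube3 j y) (fun q => c k q u) := by
      rw [Finset.mul_sum]
      refine Finset.sum_congr rfl fun k _ => ?_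
      unfold avg
      rw [← mul_assoc, mul_inv_cancel₀ hcj.ne', one_mul]
      rfl
    rw [e1]
    have e2 : (sys δ e hδ h0 h1).W (gz.cube j y) u = (cube3 j y).card * wN δ e j y u :=
      wt_eq δ e j y u
    rw [e2]
    calc ((cube3 j y).card : ℝ) * ∑ k ∈ Finset.range (j + 1), avg (cube3 j y) (fun q => c k q u)
        ≤ (cube3 j y).card * (P0 * wN δ e j y u) := mul_le_mul_of_nonneg_left h2 hcj.le
      _ = P0 * ((cube3 j y).card * wN δ e j y u) := by ring) hP0 l' hll p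
  have h3 : P0 * (dot (gz.cube l' p) F F - dot (gz.cube l' p) (P.G 0) (P.G 0)) ≤
      (cube3 l' p).card * (P0 * avg (cube3 l' p) (fun q => F q ^ 2)) := by
    have e1 := dot_eq_avg l' p F F
    simp only [← pow_two] at e1
    have h4 := dot_self_nonneg (gz.cube l' p) (P.G 0)
    have e2 : dot (gz.cube l' p) F F = dot (cube3 l' p) F F := rfl
    rw [e2, e1]
    nlinarith [mul_nonneg hP0 h4]
  have h5 := key.trans h3
  have e3 : ∑ k ∈ Finset.range (n + 1), ∑ z ∈ gz.cube l' p, ∑ j ∈ Finset.Ico k (n + 1),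
      ((P.B j (gz.cube j z)).sum fun i b => |b| * c k z i) =
      (cube3 l' p).card * ∑ k ∈ Finset.range (n + 1), avg (cube3 l' p) (fun q =>
        ∑ j ∈ Finset.Ico k (n + 1), ((P.B j (cube3 j q)).sum fun u b => |b| * c k q u)) := by
    rw [Finset.mul_sum]
    refine Finset.sum_congr rfl fun k _ => ?_
    unfold avg
    rw [← mul_assoc, mul_inv_cancel₀ hc.ne', one_mul]
    rfl
  rw [e3] at h5
  exact le_of_mul_le_mul_left h5 hc

end

end

end Vale.Agent.P141.PL.H315
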