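import Mathlib.Algebra.BigOperators.Intervals
import Mathlib.Data.Real.Basic
import Mathlib.Tactic

/-! Abstract walk over the levels for a four-linear functional. -/

namespace Vale.Agent.P141.PL.H315

open scoped BigOperators

variable {V₀ V₁ V₂ V₃ : Type*} [AddCommGroup V₀] [AddCommGroup V₁] [AddCommGroup V₂]
  [AddCommGroup V₃]

/-- Additive in each of four variables. -/
structure Add4 (L : V₀ → V₁ → V₂ → V₃ → ℝ) : Prop where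
  sub0 : ∀ a a' b c d, L (a - a') b c d = L a b c d - L a' b c d
  sub1 : ∀ a b b' c d, L a (b - b') c d = L a b c d - L a b' c d
  sub2 : ∀ a b c c' d, L a b (c - c') d = L a b c d - L a b c' d
  sub3 : ∀ a b c d d', L a b c (d - d') = L a b c d - L a b c d'

/-- The telescoping identity over the levels. -/
theorem walk_eq {L : V₀ → V₁ → V₂ → V₃ → ℝ} (hL : Add4 L) (g₀ : ℕ → V₀) (g₁ : ℕ → V₁)
    (g₂ : ℕ → V₂) (g₃ : ℕ → V₃) (M : ℕ) :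
    L (g₀ 0) (g₁ 0) (g₂ 0) (g₃ 0) = L (g₀ M) (g₁ M) (g₂ M) (g₃ M) +
      ∑ m ∈ Finset.range M, (L (g₀ m - g₀ (m + 1)) (g₁ m) (g₂ m) (g₃ m) +
        L (g₀ (m + 1)) (g₁ m - g₁ (m + 1)) (g₂ m) (g₃ m) +
        L (g₀ (m + 1)) (g₁ (m + 1)) (g₂ m - g₂ (m + 1)) (g₃ m) +
        L (g₀ (m + 1)) (g₁ (m + 1)) (g₂ (m + 1)) (g₃ m - g₃ (m + 1))) := by
  induction M with
  | zero => simp
  | succ M ih =>
    rw [Finset.sum_range_succ, ih]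
    simp only [hL.sub0, hL.sub1, hL.sub2, hL.sub3]
    ring

/-- The walk: the functional at `f` is at most the final value (with the last player raised back
to `f₃`) plus the role terms. `s j m = f j - g j m` are the structured parts. -/
theorem walk_le {L : V₀ → V₁ → V₂ → V₃ → ℝ} (hL : Add4 L) (f₀ : V₀) (f₁ : V₁) (f₂ : V₂) (f₃ : V₃)
    (g₀ : ℕ → V₀) (g₁ : ℕ → V₁) (g₂ : ℕ → V₂) (g₃ : ℕ → V₃)
    (h₀ : g₀ 0 = f₀) (h₁ : g₁ 0 = f₁) (h₂ : g₂ 0 = f₂) (h₃ : g₃ 0 = f₃) (M : ℕ) :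
    |L f₀ f₁ f₂ f₃| ≤ |L (g₀ M) (g₁ M) (g₂ M) f₃| + |L (g₀ M) (g₁ M) (g₂ M) (f₃ - g₃ M)| +
      ∑ m ∈ Finset.range M,
        ((|L (f₀ - g₀ (m + 1)) (g₁ m) (g₂ m) (g₃ m)| + |L (f₀ - g₀ m) (g₁ m) (g₂ m) (g₃ m)|) +
        (|L (g₀ (m + 1)) (f₁ - g₁ (m + 1)) (g₂ m) (g₃ m)| +
          |L (g₀ (m + 1)) (f₁ - g₁ m) (g₂ m) (g₃ m)|) +
        (|L (g₀ (m + 1)) (g₁ (m + 1)) (f₂ - g₂ (m + 1)) (g₃ m)| +
          |L (g₀ (m + 1)) (g₁ (m + 1)) (f₂ - g₂ m) (g₃ m)|) +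
        (|L (g₀ (m + 1)) (g₁ (m + 1)) (g₂ (m + 1)) (f₃ - g₃ (m + 1))| +
          |L (g₀ (m + 1)) (g₁ (m + 1)) (g₂ (m + 1)) (f₃ - g₃ m)|)) := by
  have h := walk_eq hL g₀ g₁ g₂ g₃ M
  rw [h₀, h₁, h₂, h₃] at h
  rw [h]
  refine (abs_add_le _ _).trans (add_le_add ?_ ?_)
  · have e : L (g₀ M) (g₁ M) (g₂ M) (g₃ M) =
        L (g₀ M) (g₁ M) (g₂ M) f₃ - L (g₀ M) (g₁ M) (g₂ M) (f₃ - g₃ M) := by
      rw [hL.sub3]; ring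
    rw [e]
    exact abs_sub _ _
  · refine (Finset.abs_sum_le_sum_abs _ _).trans (Finset.sum_le_sum fun m _ => ?_)
    have e0 : L (g₀ m - g₀ (m + 1)) (g₁ m) (g₂ m) (g₃ m) =
        L (f₀ - g₀ (m + 1)) (g₁ m) (g₂ m) (g₃ m) - L (f₀ - g₀ m) (g₁ m) (g₂ m) (g₃ m) := by
      simp only [hL.sub0]; ring
    have e1 : L (g₀ (m + 1)) (g₁ m - g₁ (m + 1)) (g₂ m) (g₃ m) =
        L (g₀ (m + 1)) (f₁ - g₁ (m + 1)) (g₂ m) (g₃ m) -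
          L (g₀ (m + 1)) (f₁ - g₁ m) (g₂ m) (g₃ m) := by
      simp only [hL.sub1]; ring
    have e2 : L (g₀ (m + 1)) (g₁ (m + 1)) (g₂ m - g₂ (m + 1)) (g₃ m) =
        L (g₀ (m + 1)) (g₁ (m + 1)) (f₂ - g₂ (m + 1)) (g₃ m) -
          L (g₀ (m + 1)) (g₁ (m + 1)) (f₂ - g₂ m) (g₃ m) := by
      simp only [hL.sub2]; ring
    have e3 : L (g₀ (m + 1)) (g₁ (m + 1)) (g₂ (m + 1)) (g₃ m - g₃ (m + 1)) =
        L (g₀ (m + 1)) (g₁ (m + 1)) (g₂ (m + 1)) (f₃ - g₃ (m + 1)) -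
          L (g₀ (m + 1)) (g₁ (m + 1)) (g₂ (m + 1)) (f₃ - g₃ m) := by
      simp only [hL.sub3]; ring
    rw [e0, e1, e2, e3]
    have a0 := abs_sub (L (f₀ - g₀ (m + 1)) (g₁ m) (g₂ m) (g₃ m))
      (L (f₀ - g₀ m) (g₁ m) (g₂ m) (g₃ m))
    have a1 := abs_sub (L (g₀ (m + 1)) (f₁ - g₁ (m + 1)) (g₂ m) (g₃ m))
      (L (g₀ (m + 1)) (f₁ - g₁ m) (g₂ m) (g₃ m))
    have a2 := abs_sub (L (g₀ (m + 1)) (g₁ (m + 1)) (f₂ - g₂ (m + 1)) (g₃ m))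
      (L (g₀ (m + 1)) (g₁ (m + 1)) (f₂ - g₂ m) (g₃ m))
    have a3 := abs_sub (L (g₀ (m + 1)) (g₁ (m + 1)) (g₂ (m + 1)) (f₃ - g₃ (m + 1)))
      (L (g₀ (m + 1)) (g₁ (m + 1)) (g₂ (m + 1)) (f₃ - g₃ m))
    refine (abs_add_le _ _).trans (add_le_add ((abs_add_le _ _).trans (add_le_add
      ((abs_add_le _ _).trans (add_le_add a0 a1)) a2)) a3)

end Vale.Agent.P141.PL.H315
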