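import Vale.Agent.P141.H315.Process
import Mathlib.Analysis.MeanInequalities
import Mathlib.Analysis.Convex.SpecificFunctions.Pow

/-! The births-only process for functions on `ℤ × ℤ × ℤ`, with atoms
`u12(x,y) u13(x,z) u23(y,z)` and product weights. -/

namespace Vale.Agent.P141.PL.H315

noncomputable section

open scoped BigOperators NNReal
open Vale.Agent.P141.H315

/-- The dyadic interval of side `2^k` containing `x`. -/
def iv (k : ℕ) (x : ℤ) : Finset ℤ := Finset.Ico (2 ^ k * (x / 2 ^ k)) (2 ^ k * (x / 2 ^ k) + 2 ^ k)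

theorem mem_iv {k : ℕ} {x y : ℤ} : y ∈ iv k x ↔ y / 2 ^ k = x / 2 ^ k := by
  unfold iv
  have h2 : (0 : ℤ) < 2 ^ k := by positivity
  rw [Finset.mem_Ico]
  constructor
  · rintro ⟨h1, h3⟩
    apply le_antisymm
    · have : y / 2 ^ k < x / 2 ^ k + 1 := by
        rw [Int.ediv_lt_iff_lt_mul h2]; linarith
      linarith
    · rw [Int.le_ediv_iff_mul_le h2]; linarith
  · intro h
    rw [← h]
    have h4 := Int.emod_add_mul_ediv y (2 ^ k)
    have h5 := Int.emod_nonneg y h2.ne'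
    have h6 := Int.emod_lt_of_pos y h2
    constructor <;> linarith

theorem self_mem_iv (k : ℕ) (x : ℤ) : x ∈ iv k x := mem_iv.mpr rfl

theorem iv_eq {k : ℕ} {x y : ℤ} (h : y ∈ iv k x) : iv k y = iv k x := by
  unfold iv; rw [mem_iv.mp h]

theorem card_iv (k : ℕ) (x : ℤ) : (iv k x).card = 2 ^ k := by
  unfold iv
  rw [Int.card_Ico, add_sub_cancel_left]
  exact_mod_cast Int.toNat_natCast (2 ^ k)

theorem iv_sub (k : ℕ) (x : ℤ) : iv k x ⊆ iv (k + 1) x := by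
  intro y hy
  rw [mem_iv] at hy ⊢
  have h : ∀ t : ℤ, t / 2 ^ (k + 1) = t / 2 ^ k / 2 := by
    intro t
    rw [pow_succ, Int.ediv_ediv_of_nonneg (by positivity)]
  rw [h, h, hy]

/-- The cube of side `2^k` containing `p`. -/
def cube3 (k : ℕ) (p : ℤ × ℤ × ℤ) : Finset (ℤ × ℤ × ℤ) :=
  iv k p.1 ×ˢ iv k p.2.1 ×ˢ iv k p.2.2

theorem mem_cube3 {k : ℕ} {p q : ℤ × ℤ × ℤ} :
    q ∈ cube3 k p ↔ q.1 ∈ iv k p.1 ∧ q.2.1 ∈ iv k p.2.1 ∧ q.2.2 ∈ iv k p.2.2 := by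
  unfold cube3
  rw [Finset.mem_product, Finset.mem_product]

/-- The dyadic grid in `ℤ³`. -/
def gz : Grid (ℤ × ℤ × ℤ) where
  cube := cube3
  mem k x := mem_cube3.mpr ⟨self_mem_iv _ _, self_mem_iv _ _, self_mem_iv _ _⟩
  eq_of_mem k x y h := by
    rw [mem_cube3] at h
    unfold cube3
    rw [iv_eq h.1, iv_eq h.2.1, iv_eq h.2.2]
  sub k x y h := by
    rw [mem_cube3] at h ⊢
    exact ⟨iv_sub _ _ h.1, iv_sub _ _ h.2.1, iv_sub _ _ h.2.2⟩

theorem card_cube3 (k : ℕ) (p : ℤ × ℤ × ℤ) : (cube3 k p).card = 8 ^ k := by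
  unfold cube3
  rw [Finset.card_product, Finset.card_product, card_iv, card_iv, card_iv,
    ← mul_pow, ← mul_pow]
  norm_num

/-- Discrete Loomis–Whitney inequality. -/
theorem loomis_whitney {α β γ : Type*} (A : Finset α) (B : Finset β) (C : Finset γ)
    (p : α → β → ℝ) (q : α → γ → ℝ) (r : β → γ → ℝ) :
    (∑ x ∈ A, ∑ y ∈ B, ∑ z ∈ C, p x y * q x z * r y z) ^ 2 ≤
      (∑ x ∈ A, ∑ y ∈ B, p x y ^ 2) * (∑ x ∈ A, ∑ z ∈ C, q x z ^ 2) *
        (∑ y ∈ B, ∑ z ∈ C, r y z ^ 2) := by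
  have h1 : ∑ x ∈ A, ∑ y ∈ B, ∑ z ∈ C, p x y * q x z * r y z =
      ∑ w ∈ A ×ˢ B, p w.1 w.2 * ∑ z ∈ C, q w.1 z * r w.2 z := by
    rw [Finset.sum_product]
    refine Finset.sum_congr rfl fun x _ => Finset.sum_congr rfl fun y _ => ?_
    rw [Finset.mul_sum]
    exact Finset.sum_congr rfl fun z _ => by ring
  rw [h1]
  have h2 := Finset.sum_mul_sq_le_sq_mul_sq (A ×ˢ B) (fun w => p w.1 w.2)
    (fun w => ∑ z ∈ C, q w.1 z * r w.2 z)
  refine h2.trans ?_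
  rw [Finset.sum_product]
  rw [mul_assoc]
  refine mul_le_mul_of_nonneg_left ?_ (Finset.sum_nonneg fun _ _ => Finset.sum_nonneg fun _ _ => sq_nonneg _)
  rw [Finset.sum_product, Finset.sum_mul_sum]
  exact Finset.sum_le_sum fun x _ => Finset.sum_le_sum fun y _ =>
    Finset.sum_mul_sq_le_sq_mul_sq C (fun z => q x z) (fun z => r y z)

/-- Average over a finite set. -/
def avg {X : Type*} (Q : Finset X) (f : X → ℝ) : ℝ := (Q.card : ℝ)⁻¹ * ∑ x ∈ Q, f x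

/-- Maximum of the absolute value over a finite set. -/
def mx {X : Type*} (Q : Finset X) (f : X → ℝ) : ℝ :=
  ((Q.sup fun x => ‖f x‖₊ : ℝ≥0) : ℝ)

section basic

variable {X : Type*}

theorem mx_nonneg (Q : Finset X) (f : X → ℝ) : 0 ≤ mx Q f := NNReal.coe_nonneg _

theorem abs_le_mx {Q : Finset X} {x : X} (hx : x ∈ Q) (f : X → ℝ) : |f x| ≤ mx Q f := by
  unfold mx
  have h : ‖f x‖₊ ≤ Q.sup fun x => ‖f x‖₊ := Finset.le_sup (f := fun x => ‖f x‖₊) hx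
  calc |f x| = ((‖f x‖₊ : ℝ≥0) : ℝ) := by simp
    _ ≤ _ := by exact_mod_cast h

theorem mx_mono {Q Q' : Finset X} (h : Q ⊆ Q') (f : X → ℝ) : mx Q f ≤ mx Q' f := by
  unfold mx
  exact_mod_cast Finset.sup_mono h

theorem mx_le {Q : Finset X} {f : X → ℝ} {c : ℝ} (hc : 0 ≤ c) (h : ∀ x ∈ Q, |f x| ≤ c) :
    mx Q f ≤ c := by
  unfold mx
  have : (Q.sup fun x => ‖f x‖₊) ≤ c.toNNReal := by
    refine Finset.sup_le fun x hx => ?_
    rw [← NNReal.coe_le_coe, Real.coe_toNNReal c hc]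
    simpa using h x hx
  calc ((Q.sup fun x => ‖f x‖₊ : ℝ≥0) : ℝ) ≤ (c.toNNReal : ℝ) := by exact_mod_cast this
    _ = c := Real.coe_toNNReal c hc

theorem avg_nonneg {Q : Finset X} {f : X → ℝ} (h : ∀ x ∈ Q, 0 ≤ f x) : 0 ≤ avg Q f :=
  mul_nonneg (inv_nonneg.mpr (Nat.cast_nonneg _)) (Finset.sum_nonneg h)

/-- the maximum is attained -/
theorem exists_mx {Q : Finset X} (hQ : Q.Nonempty) (f : X → ℝ) : ∃ x ∈ Q, |f x| = mx Q f := by
  obtain ⟨x, hx, h⟩ := Finset.exists_mem_eq_sup Q hQ (fun x => ‖f x‖₊)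
  exact ⟨x, hx, by unfold mx; rw [h]; simp⟩

end basic

/-- The norm `|f|_2^{1-e} |f|_∞^e` on a finite set. -/
def Nm {X : Type*} (e : ℝ) (Q : Finset X) (f : X → ℝ) : ℝ :=
  (avg Q fun x => f x ^ 2) ^ ((1 - e) / 2) * mx Q f ^ e

theorem Nm_nonneg {X : Type*} (e : ℝ) (Q : Finset X) (f : X → ℝ) : 0 ≤ Nm e Q f :=
  mul_nonneg (Real.rpow_nonneg (avg_nonneg fun _ _ => sq_nonneg _) _)
    (Real.rpow_nonneg (mx_nonneg _ _) _)

/-- Index set of the atoms: three functions of two variables. -/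
abbrev Tri := (ℤ × ℤ → ℝ) × (ℤ × ℤ → ℝ) × (ℤ × ℤ → ℝ)

/-- the three edge functions as functions on `ℤ³` -/
def e12 (u : ℤ × ℤ → ℝ) (p : ℤ × ℤ × ℤ) : ℝ := u (p.1, p.2.1)
def e13 (u : ℤ × ℤ → ℝ) (p : ℤ × ℤ × ℤ) : ℝ := u (p.1, p.2.2)
def e23 (u : ℤ × ℤ → ℝ) (p : ℤ × ℤ × ℤ) : ℝ := u (p.2.1, p.2.2)

/-- the atom -/
def atm (u : Tri) (p : ℤ × ℤ × ℤ) : ℝ := e12 u.1 p * e13 u.2.1 p * e23 u.2.2 p

/-- the weight of an atom on a finite set -/
def wt (δ e : ℝ) (Q : Finset (ℤ × ℤ × ℤ)) (u : Tri) : ℝ :=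
  δ * Q.card * (Nm e Q (e12 u.1) * Nm e Q (e13 u.2.1) * Nm e Q (e23 u.2.2))

theorem wt_nonneg {δ : ℝ} (hδ : 0 ≤ δ) (e : ℝ) (Q : Finset (ℤ × ℤ × ℤ)) (u : Tri) :
    0 ≤ wt δ e Q u := by
  unfold wt
  have := Nm_nonneg e Q (e12 u.1)
  have := Nm_nonneg e Q (e13 u.2.1)
  have := Nm_nonneg e Q (e23 u.2.2)
  positivity


section nondeg

theorem sq_mx_le_avg {X : Type*} {Q : Finset X} (hQ : Q.Nonempty) (f : X → ℝ) :
    (Q.card : ℝ)⁻¹ * mx Q f ^ 2 ≤ avg Q fun x => f x ^ 2 := by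
  obtain ⟨x, hx, h⟩ := exists_mx hQ f
  unfold avg
  refine mul_le_mul_of_nonneg_left ?_ (inv_nonneg.mpr (Nat.cast_nonneg _))
  rw [← h, sq_abs]
  exact Finset.single_le_sum (f := fun x => f x ^ 2) (fun i _ => sq_nonneg _) hx

theorem sq_mx_le_Nm {X : Type*} {Q : Finset X} (hQ : Q.Nonempty) (f : X → ℝ) {e : ℝ}
    (h0 : 0 ≤ e) (h1 : e ≤ 1) : (Q.card : ℝ)⁻¹ * mx Q f ^ 2 ≤ Nm e Q f ^ 2 := by
  have hc : (1 : ℝ) ≤ Q.card := by exact_mod_cast Finset.card_pos.mpr hQ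
  have hc0 : (0 : ℝ) < Q.card := by linarith
  have hm := mx_nonneg Q f
  have hN := Nm_nonneg e Q f
  have hav : 0 ≤ avg Q fun x => f x ^ 2 := avg_nonneg fun _ _ => sq_nonneg _
  have key := sq_mx_le_avg hQ f
  have h2 : ((Q.card : ℝ)⁻¹ * mx Q f ^ 2) ^ (1 - e) ≤ (avg Q fun x => f x ^ 2) ^ (1 - e) :=
    Real.rpow_le_rpow (by positivity) key (by linarith)
  have h3 : Nm e Q f ^ 2 = (avg Q fun x => f x ^ 2) ^ (1 - e) * (mx Q f ^ 2) ^ e := by
    unfold Nm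
    rw [mul_pow]
    congr 1
    · rw [← Real.rpow_natCast, ← Real.rpow_mul hav]; congr 1; push_cast; ring
    · rw [← Real.rpow_natCast (mx Q f ^ e), ← Real.rpow_mul hm, ← Real.rpow_natCast (mx Q f),
        ← Real.rpow_mul hm]
      congr 1; ring
  rw [h3]
  have h4 : (Q.card : ℝ)⁻¹ * mx Q f ^ 2 ≤
      ((Q.card : ℝ)⁻¹ * mx Q f ^ 2) ^ (1 - e) * (mx Q f ^ 2) ^ e := by
    rw [Real.mul_rpow (by positivity) (by positivity), mul_assoc,
      ← Real.rpow_add_of_nonneg (by positivity) (by linarith) h0]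
    have h5 : (1 - e + e : ℝ) = 1 := by ring
    rw [h5, Real.rpow_one]
    refine mul_le_mul_of_nonneg_right ?_ (by positivity)
    calc (Q.card : ℝ)⁻¹ = ((Q.card : ℝ)⁻¹) ^ (1 : ℝ) := (Real.rpow_one _).symm
      _ ≤ ((Q.card : ℝ)⁻¹) ^ (1 - e) :=
        Real.rpow_le_rpow_of_exponent_ge (by positivity) (inv_le_one_of_one_le₀ hc) (by linarith)
  exact h4.trans (mul_le_mul_of_nonneg_right h2 (Real.rpow_nonneg (by positivity) _))

theorem nondeg_atm {δ e : ℝ} (hδ : 0 < δ) (h0 : 0 ≤ e) (h1 : e ≤ 1)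
    {Q : Finset (ℤ × ℤ × ℤ)} (hQ : Q.Nonempty) :
    ∃ β : ℝ, 0 < β ∧ ∀ u : Tri, β * dot Q (atm u) (atm u) ≤ wt δ e Q u ^ 2 := by
  have hc : (1 : ℝ) ≤ Q.card := by exact_mod_cast Finset.card_pos.mpr hQ
  have hc0 : (0 : ℝ) < Q.card := by linarith
  refine ⟨δ ^ 2 * (Q.card : ℝ)⁻¹ ^ 2, by positivity, fun u => ?_⟩
  set a := mx Q (e12 u.1)
  set b := mx Q (e13 u.2.1)
  set c := mx Q (e23 u.2.2)
  have ha : 0 ≤ a := mx_nonneg _ _
  have hb : 0 ≤ b := mx_nonneg _ _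
  have hcc : 0 ≤ c := mx_nonneg _ _
  have h2 : dot Q (atm u) (atm u) ≤ Q.card * (a ^ 2 * b ^ 2 * c ^ 2) := by
    unfold dot
    rw [← nsmul_eq_mul]
    refine Finset.sum_le_card_nsmul _ _ _ fun p hp => ?_
    have e1 : |e12 u.1 p| ≤ a := abs_le_mx hp _
    have e2 : |e13 u.2.1 p| ≤ b := abs_le_mx hp _
    have e3 : |e23 u.2.2 p| ≤ c := abs_le_mx hp _
    have e4 : |atm u p| ≤ a * b * c := by
      unfold atm
      rw [abs_mul, abs_mul]
      exact mul_le_mul (mul_le_mul e1 e2 (abs_nonneg _) ha) e3 (abs_nonneg _) (by positivity)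
    have e5 : atm u p * atm u p = |atm u p| ^ 2 := by rw [sq_abs]; ring
    rw [e5]
    calc |atm u p| ^ 2 ≤ (a * b * c) ^ 2 := pow_le_pow_left₀ (abs_nonneg _) e4 2
      _ = a ^ 2 * b ^ 2 * c ^ 2 := by ring
  have h3 : wt δ e Q u ^ 2 = δ ^ 2 * (Q.card : ℝ) ^ 2 *
      (Nm e Q (e12 u.1) ^ 2 * Nm e Q (e13 u.2.1) ^ 2 * Nm e Q (e23 u.2.2) ^ 2) := by
    unfold wt; ring
  have k1 := sq_mx_le_Nm hQ (e12 u.1) h0 h1
  have k2 := sq_mx_le_Nm hQ (e13 u.2.1) h0 h1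
  have k3 := sq_mx_le_Nm hQ (e23 u.2.2) h0 h1
  have h4 : ((Q.card : ℝ)⁻¹ * a ^ 2) * ((Q.card : ℝ)⁻¹ * b ^ 2) * ((Q.card : ℝ)⁻¹ * c ^ 2) ≤
      Nm e Q (e12 u.1) ^ 2 * Nm e Q (e13 u.2.1) ^ 2 * Nm e Q (e23 u.2.2) ^ 2 :=
    mul_le_mul (mul_le_mul k1 k2 (by positivity) (by positivity)) k3 (by positivity)
      (by positivity)
  rw [h3]
  calc δ ^ 2 * (Q.card : ℝ)⁻¹ ^ 2 * dot Q (atm u) (atm u)
      ≤ δ ^ 2 * (Q.card : ℝ)⁻¹ ^ 2 * (Q.card * (a ^ 2 * b ^ 2 * c ^ 2)) :=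
        mul_le_mul_of_nonneg_left h2 (by positivity)
    _ = δ ^ 2 * (Q.card : ℝ) ^ 2 * (((Q.card : ℝ)⁻¹ * a ^ 2) * ((Q.card : ℝ)⁻¹ * b ^ 2) *
          ((Q.card : ℝ)⁻¹ * c ^ 2)) := by field_simp
    _ ≤ _ := mul_le_mul_of_nonneg_left h4 (by positivity)

end nondeg

section inherit

/-- Average over the cube of averages over the subcubes. -/
theorem sum_avg_cubes {X : Type*} (g : Grid X) {k l : ℕ} (h : k ≤ l) (x : X) (f : X → ℝ) :
    ∑ y ∈ g.cube l x, avg (g.cube k y) f = ∑ y ∈ g.cube l x, f y := by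
  have hone : ∀ y, ∑ z ∈ g.cube k y, avg (g.cube k z) f = ∑ z ∈ g.cube k y, f z := by
    intro y
    have h1 : ∀ z ∈ g.cube k y, avg (g.cube k z) f = avg (g.cube k y) f := fun z hz => by
      rw [g.eq_of_mem k y z hz]
    rw [Finset.sum_congr rfl h1, Finset.sum_const, nsmul_eq_mul]
    have : ((g.cube k y).card : ℝ) ≠ 0 := by
      exact_mod_cast (Finset.card_pos.mpr ⟨y, g.mem k y⟩).ne'
    unfold avg
    field_simp
  exact le_antisymm (g.sum_le_sum_of_cubes h x _ _ fun y _ => (hone y).le)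
    (g.sum_le_sum_of_cubes h x _ _ fun y _ => (hone y).ge)

/-- Jensen for a power `θ ∈ [0,1]`. -/
theorem avg_rpow_le {X : Type*} {Q : Finset X} (hQ : Q.Nonempty) {h : X → ℝ}
    (hh : ∀ x ∈ Q, 0 ≤ h x) {θ : ℝ} (h0 : 0 ≤ θ) (h1 : θ ≤ 1) :
    avg Q (fun x => h x ^ θ) ≤ (avg Q h) ^ θ := by
  have hc : (0 : ℝ) < Q.card := by exact_mod_cast Finset.card_pos.mpr hQ
  have := (Real.concaveOn_rpow h0 h1).le_map_sum (t := Q) (w := fun _ => (Q.card : ℝ)⁻¹)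
    (p := h) (fun _ _ => by positivity) (by rw [Finset.sum_const, nsmul_eq_mul]; field_simp)
    (fun x hx => hh x hx)
  simp only [smul_eq_mul] at this
  unfold avg
  rw [Finset.mul_sum, Finset.mul_sum]
  exact this

/-- Sum over a box of a function of the first two coordinates, etc. -/
theorem sum_box12 (A B C : Finset ℤ) (φ : ℤ × ℤ → ℝ) :
    ∑ p ∈ A ×ˢ B ×ˢ C, φ (p.1, p.2.1) = C.card * ∑ w ∈ A ×ˢ B, φ w := by
  rw [Finset.sum_product, Finset.sum_product, Finset.mul_sum]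
  refine Finset.sum_congr rfl fun s _ => ?_
  rw [Finset.sum_product, Finset.mul_sum]
  exact Finset.sum_congr rfl fun t _ => by simp only [Finset.sum_const, nsmul_eq_mul]

theorem sum_box13 (A B C : Finset ℤ) (φ : ℤ × ℤ → ℝ) :
    ∑ p ∈ A ×ˢ B ×ˢ C, φ (p.1, p.2.2) = B.card * ∑ w ∈ A ×ˢ C, φ w := by
  rw [Finset.sum_product, Finset.sum_product, Finset.mul_sum]
  refine Finset.sum_congr rfl fun s _ => ?_
  rw [Finset.sum_product]
  simp only [Finset.sum_const, nsmul_eq_mul]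

theorem sum_box23 (A B C : Finset ℤ) (φ : ℤ × ℤ → ℝ) :
    ∑ p ∈ A ×ˢ B ×ˢ C, φ (p.2.1, p.2.2) = A.card * ∑ w ∈ B ×ˢ C, φ w := by
  rw [Finset.sum_product]
  simp only [Finset.sum_const, nsmul_eq_mul]

/-- the average of the square over the square `iv k s × iv k t` -/
def A2 (k : ℕ) (u : ℤ × ℤ → ℝ) (s t : ℤ) : ℝ := avg (iv k s ×ˢ iv k t) fun w => u w ^ 2

theorem A2_nonneg (k : ℕ) (u : ℤ × ℤ → ℝ) (s t : ℤ) : 0 ≤ A2 k u s t :=
  avg_nonneg fun _ _ => sq_nonneg _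

theorem card_pos_iv (k : ℕ) (x : ℤ) : (0 : ℝ) < (iv k x).card := by
  rw [card_iv]; positivity

theorem avg_e12 (k : ℕ) (u : ℤ × ℤ → ℝ) (p : ℤ × ℤ × ℤ) :
    avg (cube3 k p) (fun q => e12 u q ^ 2) = A2 k u p.1 p.2.1 := by
  unfold avg A2 cube3 e12 avg
  rw [sum_box12 _ _ _ (fun w => u w ^ 2), Finset.card_product, Finset.card_product,
    Finset.card_product]
  have h1 := card_pos_iv k p.1
  have h2 := card_pos_iv k p.2.1
  have h3 := card_pos_iv k p.2.2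
  push_cast
  field_simp

theorem avg_e13 (k : ℕ) (u : ℤ × ℤ → ℝ) (p : ℤ × ℤ × ℤ) :
    avg (cube3 k p) (fun q => e13 u q ^ 2) = A2 k u p.1 p.2.2 := by
  unfold avg A2 cube3 e13 avg
  rw [sum_box13 _ _ _ (fun w => u w ^ 2), Finset.card_product, Finset.card_product,
    Finset.card_product]
  have h1 := card_pos_iv k p.1
  have h2 := card_pos_iv k p.2.1
  have h3 := card_pos_iv k p.2.2
  push_cast
  field_simp

theorem avg_e23 (k : ℕ) (u : ℤ × ℤ → ℝ) (p : ℤ × ℤ × ℤ) :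
    avg (cube3 k p) (fun q => e23 u q ^ 2) = A2 k u p.2.1 p.2.2 := by
  unfold avg A2 cube3 e23 avg
  rw [sum_box23 _ _ _ (fun w => u w ^ 2), Finset.card_product, Finset.card_product]
  have h1 := card_pos_iv k p.1
  have h2 := card_pos_iv k p.2.1
  have h3 := card_pos_iv k p.2.2
  push_cast
  field_simp

theorem sum_A2_12 {k l : ℕ} (h : k ≤ l) (u : ℤ × ℤ → ℝ) (p : ℤ × ℤ × ℤ) :
    ∑ s ∈ iv l p.1, ∑ t ∈ iv l p.2.1, A2 k u s t =
      (iv l p.1).card * (iv l p.2.1).card * avg (cube3 l p) (fun q => e12 u q ^ 2) := by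
  have h1 := sum_avg_cubes gz h p (fun q => e12 u q ^ 2)
  have h2 : ∑ y ∈ gz.cube l p, avg (gz.cube k y) (fun q => e12 u q ^ 2) =
      (iv l p.2.2).card * ∑ w ∈ iv l p.1 ×ˢ iv l p.2.1, A2 k u w.1 w.2 := by
    rw [← sum_box12 _ _ _ (fun w => A2 k u w.1 w.2)]
    exact Finset.sum_congr rfl fun y _ => avg_e12 k u y
  rw [h2, Finset.sum_product] at h1
  have hc1 := card_pos_iv l p.1
  have hc2 := card_pos_iv l p.2.1
  have hc3 := card_pos_iv l p.2.2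
  unfold avg
  have h3 : ((cube3 l p).card : ℝ) = (iv l p.1).card * ((iv l p.2.1).card * (iv l p.2.2).card) := by
    unfold cube3
    rw [Finset.card_product, Finset.card_product]; push_cast; ring
  have h4 : ∑ x ∈ cube3 l p, e12 u x ^ 2 = ∑ y ∈ gz.cube l p, e12 u y ^ 2 := rfl
  rw [h3, h4, ← h1]
  field_simp

theorem sum_A2_13 {k l : ℕ} (h : k ≤ l) (u : ℤ × ℤ → ℝ) (p : ℤ × ℤ × ℤ) :
    ∑ s ∈ iv l p.1, ∑ t ∈ iv l p.2.2, A2 k u s t =
      (iv l p.1).card * (iv l p.2.2).card * avg (cube3 l p) (fun q => e13 u q ^ 2) := by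
  have h1 := sum_avg_cubes gz h p (fun q => e13 u q ^ 2)
  have h2 : ∑ y ∈ gz.cube l p, avg (gz.cube k y) (fun q => e13 u q ^ 2) =
      (iv l p.2.1).card * ∑ w ∈ iv l p.1 ×ˢ iv l p.2.2, A2 k u w.1 w.2 := by
    rw [← sum_box13 _ _ _ (fun w => A2 k u w.1 w.2)]
    exact Finset.sum_congr rfl fun y _ => avg_e13 k u y
  rw [h2, Finset.sum_product] at h1
  have hc1 := card_pos_iv l p.1
  have hc2 := card_pos_iv l p.2.1
  have hc3 := card_pos_iv l p.2.2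
  unfold avg
  have h3 : ((cube3 l p).card : ℝ) = (iv l p.1).card * ((iv l p.2.1).card * (iv l p.2.2).card) := by
    unfold cube3
    rw [Finset.card_product, Finset.card_product]; push_cast; ring
  have h4 : ∑ x ∈ cube3 l p, e13 u x ^ 2 = ∑ y ∈ gz.cube l p, e13 u y ^ 2 := rfl
  rw [h3, h4, ← h1]
  field_simp

theorem sum_A2_23 {k l : ℕ} (h : k ≤ l) (u : ℤ × ℤ → ℝ) (p : ℤ × ℤ × ℤ) :
    ∑ s ∈ iv l p.2.1, ∑ t ∈ iv l p.2.2, A2 k u s t =
      (iv l p.2.1).card * (iv l p.2.2).card * avg (cube3 l p) (fun q => e23 u q ^ 2) := by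
  have h1 := sum_avg_cubes gz h p (fun q => e23 u q ^ 2)
  have h2 : ∑ y ∈ gz.cube l p, avg (gz.cube k y) (fun q => e23 u q ^ 2) =
      (iv l p.1).card * ∑ w ∈ iv l p.2.1 ×ˢ iv l p.2.2, A2 k u w.1 w.2 := by
    rw [← sum_box23 _ _ _ (fun w => A2 k u w.1 w.2)]
    exact Finset.sum_congr rfl fun y _ => avg_e23 k u y
  rw [h2, Finset.sum_product] at h1
  have hc1 := card_pos_iv l p.1
  have hc2 := card_pos_iv l p.2.1
  have hc3 := card_pos_iv l p.2.2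
  unfold avg
  have h3 : ((cube3 l p).card : ℝ) = (iv l p.1).card * ((iv l p.2.1).card * (iv l p.2.2).card) := by
    unfold cube3
    rw [Finset.card_product, Finset.card_product]; push_cast; ring
  have h4 : ∑ x ∈ cube3 l p, e23 u x ^ 2 = ∑ y ∈ gz.cube l p, e23 u y ^ 2 := rfl
  rw [h3, h4, ← h1]
  field_simp

/-- the geometric function of the Loomis–Whitney argument -/
def hLW (k : ℕ) (u : Tri) (p : ℤ × ℤ × ℤ) : ℝ :=
  √(A2 k u.1 p.1 p.2.1) * √(A2 k u.2.1 p.1 p.2.2) * √(A2 k u.2.2 p.2.1 p.2.2)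

theorem hLW_nonneg (k : ℕ) (u : Tri) (p : ℤ × ℤ × ℤ) : 0 ≤ hLW k u p := by
  unfold hLW; positivity

theorem avg_hLW_sq_le {k l : ℕ} (h : k ≤ l) (u : Tri) (p : ℤ × ℤ × ℤ) :
    (avg (cube3 l p) (hLW k u)) ^ 2 ≤ avg (cube3 l p) (fun q => e12 u.1 q ^ 2) *
      avg (cube3 l p) (fun q => e13 u.2.1 q ^ 2) * avg (cube3 l p) (fun q => e23 u.2.2 q ^ 2) := by
  have h1 := loomis_whitney (iv l p.1) (iv l p.2.1) (iv l p.2.2)
    (fun s t => √(A2 k u.1 s t)) (fun s t => √(A2 k u.2.1 s t)) (fun s t => √(A2 k u.2.2 s t))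
  simp only [Real.sq_sqrt (A2_nonneg _ _ _ _)] at h1
  rw [sum_A2_12 h, sum_A2_13 h, sum_A2_23 h] at h1
  have h2 : ∑ q ∈ cube3 l p, hLW k u q = ∑ x ∈ iv l p.1, ∑ y ∈ iv l p.2.1, ∑ z ∈ iv l p.2.2,
      √(A2 k u.1 x y) * √(A2 k u.2.1 x z) * √(A2 k u.2.2 y z) := by
    unfold cube3
    rw [Finset.sum_product]
    refine Finset.sum_congr rfl fun s _ => ?_
    rw [Finset.sum_product]
    rfl
  rw [← h2] at h1
  have h3 : ((cube3 l p).card : ℝ) = (iv l p.1).card * ((iv l p.2.1).card * (iv l p.2.2).card) := by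
    unfold cube3
    rw [Finset.card_product, Finset.card_product]; push_cast; ring
  have hc1 := card_pos_iv l p.1
  have hc2 := card_pos_iv l p.2.1
  have hc3 := card_pos_iv l p.2.2
  have hc : (0 : ℝ) < (cube3 l p).card := by rw [h3]; positivity
  have h4 : (avg (cube3 l p) (hLW k u)) ^ 2 =
      ((cube3 l p).card : ℝ)⁻¹ ^ 2 * (∑ q ∈ cube3 l p, hLW k u q) ^ 2 := by
    unfold avg; ring
  rw [h4]
  calc ((cube3 l p).card : ℝ)⁻¹ ^ 2 * (∑ q ∈ cube3 l p, hLW k u q) ^ 2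
      ≤ ((cube3 l p).card : ℝ)⁻¹ ^ 2 * _ := mul_le_mul_of_nonneg_left h1 (by positivity)
    _ = _ := by rw [h3]; field_simp

theorem sqrt_rpow_eq {t : ℝ} (ht : 0 ≤ t) (e : ℝ) : (√t) ^ (1 - e) = t ^ ((1 - e) / 2) := by
  rw [Real.sqrt_eq_rpow, ← Real.rpow_mul ht]; congr 1; ring

/-- The product of the three norms is superharmonic along the tree. -/
theorem avg_prod_Nm_le {k l : ℕ} (h : k ≤ l) {e : ℝ} (h0 : 0 ≤ e) (h1 : e ≤ 1) (u : Tri)
    (p : ℤ × ℤ × ℤ) :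
    avg (cube3 l p) (fun q => Nm e (cube3 k q) (e12 u.1) * Nm e (cube3 k q) (e13 u.2.1) *
      Nm e (cube3 k q) (e23 u.2.2)) ≤
    Nm e (cube3 l p) (e12 u.1) * Nm e (cube3 l p) (e13 u.2.1) * Nm e (cube3 l p) (e23 u.2.2) := by
  have hQ : (cube3 l p).Nonempty := ⟨p, gz.mem l p⟩
  set M := mx (cube3 l p) (e12 u.1) ^ e * mx (cube3 l p) (e13 u.2.1) ^ e *
    mx (cube3 l p) (e23 u.2.2) ^ e with hM
  have hM0 : 0 ≤ M := by
    have := Real.rpow_nonneg (mx_nonneg (cube3 l p) (e12 u.1)) e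
    have := Real.rpow_nonneg (mx_nonneg (cube3 l p) (e13 u.2.1)) e
    have := Real.rpow_nonneg (mx_nonneg (cube3 l p) (e23 u.2.2)) e
    positivity
  -- pointwise bound
  have hpt : ∀ q ∈ cube3 l p, Nm e (cube3 k q) (e12 u.1) * Nm e (cube3 k q) (e13 u.2.1) *
      Nm e (cube3 k q) (e23 u.2.2) ≤ M * hLW k u q ^ (1 - e) := by
    intro q hq
    have hsub : cube3 k q ⊆ cube3 l p := gz.cube_subset h hq
    have hm : ∀ f : ℤ × ℤ × ℤ → ℝ, mx (cube3 k q) f ^ e ≤ mx (cube3 l p) f ^ e := fun f =>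
      Real.rpow_le_rpow (mx_nonneg _ _) (mx_mono hsub f) h0
    have hh : hLW k u q ^ (1 - e) = A2 k u.1 q.1 q.2.1 ^ ((1 - e) / 2) *
        A2 k u.2.1 q.1 q.2.2 ^ ((1 - e) / 2) * A2 k u.2.2 q.2.1 q.2.2 ^ ((1 - e) / 2) := by
      unfold hLW
      rw [Real.mul_rpow (by positivity) (by positivity), Real.mul_rpow (by positivity) (by positivity),
        sqrt_rpow_eq (A2_nonneg _ _ _ _), sqrt_rpow_eq (A2_nonneg _ _ _ _),
        sqrt_rpow_eq (A2_nonneg _ _ _ _)]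
    have hp : ∀ {t : ℝ}, 0 ≤ t → 0 ≤ t ^ ((1 - e) / 2) := fun ht => Real.rpow_nonneg ht _
    unfold Nm
    rw [avg_e12, avg_e13, avg_e23, hh, hM]
    have b1 := hm (e12 u.1)
    have b2 := hm (e13 u.2.1)
    have b3 := hm (e23 u.2.2)
    have n1 := Real.rpow_nonneg (mx_nonneg (cube3 k q) (e12 u.1)) e
    have n2 := Real.rpow_nonneg (mx_nonneg (cube3 k q) (e13 u.2.1)) e
    have n3 := Real.rpow_nonneg (mx_nonneg (cube3 k q) (e23 u.2.2)) e
    have a1 := hp (A2_nonneg k u.1 q.1 q.2.1)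
    have a2 := hp (A2_nonneg k u.2.1 q.1 q.2.2)
    have a3 := hp (A2_nonneg k u.2.2 q.2.1 q.2.2)
    have hprod : mx (cube3 k q) (e12 u.1) ^ e * mx (cube3 k q) (e13 u.2.1) ^ e *
        mx (cube3 k q) (e23 u.2.2) ^ e ≤ mx (cube3 l p) (e12 u.1) ^ e *
        mx (cube3 l p) (e13 u.2.1) ^ e * mx (cube3 l p) (e23 u.2.2) ^ e :=
      mul_le_mul (mul_le_mul b1 b2 n2 (n1.trans b1)) b3 n3
        (mul_nonneg (n1.trans b1) (n2.trans b2))
    calc A2 k u.1 q.1 q.2.1 ^ ((1 - e) / 2) * mx (cube3 k q) (e12 u.1) ^ e *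
          (A2 k u.2.1 q.1 q.2.2 ^ ((1 - e) / 2) * mx (cube3 k q) (e13 u.2.1) ^ e) *
          (A2 k u.2.2 q.2.1 q.2.2 ^ ((1 - e) / 2) * mx (cube3 k q) (e23 u.2.2) ^ e)
        = (mx (cube3 k q) (e12 u.1) ^ e * mx (cube3 k q) (e13 u.2.1) ^ e *
            mx (cube3 k q) (e23 u.2.2) ^ e) * (A2 k u.1 q.1 q.2.1 ^ ((1 - e) / 2) *
            A2 k u.2.1 q.1 q.2.2 ^ ((1 - e) / 2) * A2 k u.2.2 q.2.1 q.2.2 ^ ((1 - e) / 2)) := by
          ring
      _ ≤ _ := mul_le_mul_of_nonneg_right hprod (mul_nonneg (mul_nonneg a1 a2) a3)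
  have hle : avg (cube3 l p) (fun q => Nm e (cube3 k q) (e12 u.1) *
      Nm e (cube3 k q) (e13 u.2.1) * Nm e (cube3 k q) (e23 u.2.2)) ≤
      M * avg (cube3 l p) (fun q => hLW k u q ^ (1 - e)) := by
    have e1 : M * avg (cube3 l p) (fun q => hLW k u q ^ (1 - e)) =
        avg (cube3 l p) (fun q => M * hLW k u q ^ (1 - e)) := by
      unfold avg; rw [← Finset.mul_sum]; ring
    rw [e1]
    exact mul_le_mul_of_nonneg_left (Finset.sum_le_sum hpt) (inv_nonneg.mpr (Nat.cast_nonneg _))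
  refine hle.trans ?_
  have hJ := avg_rpow_le hQ (h := hLW k u) (fun x _ => hLW_nonneg k u x) (θ := 1 - e)
    (by linarith) (by linarith)
  have hav : 0 ≤ avg (cube3 l p) (hLW k u) := avg_nonneg fun _ _ => hLW_nonneg _ _ _
  set a := avg (cube3 l p) (fun q => e12 u.1 q ^ 2) with ha
  set b := avg (cube3 l p) (fun q => e13 u.2.1 q ^ 2) with hb
  set c := avg (cube3 l p) (fun q => e23 u.2.2 q ^ 2) with hc
  have ha0 : 0 ≤ a := avg_nonneg fun _ _ => sq_nonneg _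
  have hb0 : 0 ≤ b := avg_nonneg fun _ _ => sq_nonneg _
  have hc0 : 0 ≤ c := avg_nonneg fun _ _ => sq_nonneg _
  have hsq : avg (cube3 l p) (hLW k u) ≤ √(a * b * c) := by
    rw [← Real.sqrt_sq hav]
    exact Real.sqrt_le_sqrt (avg_hLW_sq_le h u p)
  have hfin : avg (cube3 l p) (fun q => hLW k u q ^ (1 - e)) ≤
      a ^ ((1 - e) / 2) * b ^ ((1 - e) / 2) * c ^ ((1 - e) / 2) := by
    refine hJ.trans ((Real.rpow_le_rpow hav hsq (by linarith)).trans_eq ?_)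
    rw [sqrt_rpow_eq (by positivity), Real.mul_rpow (by positivity) hc0, Real.mul_rpow ha0 hb0]
  calc M * avg (cube3 l p) (fun q => hLW k u q ^ (1 - e))
      ≤ M * (a ^ ((1 - e) / 2) * b ^ ((1 - e) / 2) * c ^ ((1 - e) / 2)) :=
        mul_le_mul_of_nonneg_left hfin hM0
    _ = _ := by unfold Nm; rw [hM]; ring

/-- The weighted system of atoms. -/
def sys (δ e : ℝ) (hδ : 0 < δ) (h0 : 0 ≤ e) (h1 : e ≤ 1) : Sys gz Tri where
  a := atm
  W := wt δ e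
  W_nonneg Q u := wt_nonneg hδ.le e Q u
  nondeg k x := nondeg_atm hδ h0 h1 ⟨x, gz.mem k x⟩
  inherit k x u G hG := by
    have h2 : ∀ y ∈ gz.cube (k + 1) x, |dot (gz.cube k y) G (atm u)| ≤
        ∑ z ∈ gz.cube k y, δ * (Nm e (cube3 k z) (e12 u.1) * Nm e (cube3 k z) (e13 u.2.1) *
          Nm e (cube3 k z) (e23 u.2.2)) := by
      intro y hy
      refine (hG y hy).trans_eq ?_
      have h3 : ∀ z ∈ gz.cube k y, δ * (Nm e (cube3 k z) (e12 u.1) *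
          Nm e (cube3 k z) (e13 u.2.1) * Nm e (cube3 k z) (e23 u.2.2)) =
          δ * (Nm e (cube3 k y) (e12 u.1) * Nm e (cube3 k y) (e13 u.2.1) *
          Nm e (cube3 k y) (e23 u.2.2)) := by
        intro z hz
        have : cube3 k z = cube3 k y := gz.eq_of_mem k y z hz
        rw [this]
      rw [Finset.sum_congr rfl h3, Finset.sum_const, nsmul_eq_mul]
      show wt δ e (cube3 k y) u = _
      unfold wt
      show _ = ((cube3 k y).card : ℝ) * _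
      ring
    have h4 : |dot (gz.cube (k + 1) x) G (atm u)| ≤ ∑ z ∈ gz.cube (k + 1) x,
        δ * (Nm e (cube3 k z) (e12 u.1) * Nm e (cube3 k z) (e13 u.2.1) *
          Nm e (cube3 k z) (e23 u.2.2)) := by
      rw [abs_le]
      constructor
      · rw [neg_le]
        have := gz.sum_le_sum_of_cubes (Nat.le_succ k) x (fun z => -(G z * atm u z))
          (fun z => δ * (Nm e (cube3 k z) (e12 u.1) * Nm e (cube3 k z) (e13 u.2.1) *
            Nm e (cube3 k z) (e23 u.2.2)))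
          (fun y hy => by
            rw [Finset.sum_neg_distrib]
            have := (abs_le.mp (h2 y hy)).1
            unfold dot at this
            linarith)
        rw [Finset.sum_neg_distrib] at this
        exact this
      · exact gz.sum_le_sum_of_cubes (Nat.le_succ k) x (fun z => G z * atm u z) _
          (fun y hy => (abs_le.mp (h2 y hy)).2)
    refine h4.trans ?_
    have h5 := avg_prod_Nm_le (Nat.le_succ k) h0 h1 u x
    have hc : (0 : ℝ) < (cube3 (k + 1) x).card := by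
      exact_mod_cast Finset.card_pos.mpr ⟨x, gz.mem (k + 1) x⟩
    rw [← Finset.mul_sum]
    show δ * ∑ z ∈ cube3 (k + 1) x, _ ≤ wt δ e (cube3 (k + 1) x) u
    unfold wt
    unfold avg at h5
    rw [inv_mul_le_iff₀ hc] at h5
    calc δ * ∑ z ∈ cube3 (k + 1) x, _ ≤ δ * _ := mul_le_mul_of_nonneg_left h5 hδ.le
      _ = _ := by ring

end inherit

end

end Vale.Agent.P141.PL.H315
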