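import Vale.Agent.P141.PL.H315.Role
import Vale.Agent.P141.PL.H314.NodeWalk
import Vale.Agent.P141.PL.H95.Grid

/-! One role of the walk at the nodes of the one-dimensional form. -/

namespace Vale.Agent.P141.PL.H315

open scoped BigOperators
open Vale.Agent.P141.H315 Vale.Agent.P141.PL.H318 Vale.Agent.P141.PL.H314
open Vale.Agent.P141.PL.H620

noncomputable section

/-- the players of a node with player `i` replaced by `φ` -/
def put (i : Fin 4) (h : Fin 4 → ℤ → ℝ) (φ : ℤ → ℝ) : Fin 4 → ℤ → ℝ :=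
  fun j => if j = i then φ else h j

theorem put_self (i : Fin 4) (h : Fin 4 → ℤ → ℝ) (φ : ℤ → ℝ) : put i h φ i = φ := if_pos rfl

theorem put_ne {i j : Fin 4} (hj : j ≠ i) (h : Fin 4 → ℤ → ℝ) (φ : ℤ → ℝ) :
    put i h φ j = h j := if_neg hj

theorem prod_put (i : Fin 4) (h : Fin 4 → ℤ → ℝ) (φ : ℤ → ℝ) (t : Fin 4 → ℤ) :
    ∏ j, put i h φ j (t j) = φ (t i) * ∏ j ∈ Finset.univ.erase i, h j (t j) := by
  rw [← Finset.mul_prod_erase _ _ (Finset.mem_univ i), put_self]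
  congr 1
  refine Finset.prod_congr rfl fun j hj => ?_
  rw [put_ne (Finset.ne_of_mem_erase hj)]

/-- The node form as a linear functional of the player `i`. -/
def ndL (o : ℤ) (k : ℕ) (v : ℤ) (i : Fin 4) (h : Fin 4 → ℤ → ℝ) : (ℤ → ℝ) →ₗ[ℝ] ℝ where
  toFun φ := nd o k v (put i h φ)
  map_add' φ ψ := by
    unfold nd loc1
    simp only [prod_put, Pi.add_apply]
    rw [← mul_add, ← mul_add, ← Finset.sum_add_distrib]
    congr 2
    exact Finset.sum_congr rfl fun x _ => by ring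
  map_smul' c φ := by
    unfold nd loc1
    simp only [prod_put, Pi.smul_apply, smul_eq_mul, RingHom.id_apply]
    rw [mul_left_comm c, mul_left_comm c, Finset.mul_sum (a := c)]
    congr 2
    exact Finset.sum_congr rfl fun x _ => by ring

theorem ndL_apply (o : ℤ) (k : ℕ) (v : ℤ) (i : Fin 4) (h : Fin 4 → ℤ → ℝ) (φ : ℤ → ℝ) :
    ndL o k v i h φ = nd o k v (put i h φ) := rfl

/-- left end point of the window -/
def le (N : ℕ × ℤ) : ℤ := 2 ^ N.1 * (N.2 - 16)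

/-- **One role at the nodes.** `𝒩`: nodes whose windows are inside one interval of the grid `g`;
`F` the function of the process, `G j k` the companions. -/
theorem node_role {ι : Type*} {g : Grid ℤ} {o : ℤ} (ho : o = 1 ∨ o = -1) (S : CSys g ι) (K : ℕ)
    (F : ℤ → ℝ) (𝒩 : Finset (ℕ × ℤ)) (hK : ∀ N ∈ 𝒩, N.1 ≤ K)
    (hW : ∀ N ∈ 𝒩, Win N.1 N.2 ⊆ g.cube N.1 (le N))
    (i : Fin 4) (h : ℕ → Fin 4 → ℤ → ℝ) {P : ℝ} (hP : 0 ≤ P)
    (hcost : ∀ l ≤ K, ∀ y : ℤ, ∀ t, ∀ 𝒩' ⊆ 𝒩,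
      (∀ N ∈ 𝒩', N.1 ≤ l ∧ g.cube l (le N) = g.cube l y) →
      ∑ N ∈ 𝒩', |nd o N.1 N.2 (put i (h N.1) (S.a l t))| ≤ P * S.W l (g.cube l y) t)
    (U : Finset ℤ) (hU : ∀ N ∈ 𝒩, g.cube K (le N) ⊆ U)
    (f : ℕ × ℤ → Fin 4 → ℤ → ℝ)
    (hf : ∀ N ∈ 𝒩, ∀ y ∈ Win N.1 N.2, f N i y = F y - RG S K F N.1 y)
    (hf' : ∀ N ∈ 𝒩, ∀ j, j ≠ i → ∀ y ∈ Win N.1 N.2, f N j y = h N.1 j y) :
    ∑ N ∈ 𝒩, |nd o N.1 N.2 (f N)| ≤ P * (4 * dot U F F) := by
  have key := role S K F 𝒩 (fun N => N.1) le (fun N => ndL o N.1 N.2 i (h N.1)) hK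
    (fun N hN f f' hff => by
      rw [ndL_apply, ndL_apply]
      refine nd_congr ho fun j y hy => ?_
      by_cases hj : j = i
      · subst hj
        rw [put_self, put_self]
        exact hff y (hW N hN hy)
      · rw [put_ne hj, put_ne hj])
    hP hcost U hU
  refine le_trans (le_of_eq (Finset.sum_congr rfl fun N hN => ?_)) key
  rw [ndL_apply]
  congr 1
  refine nd_congr ho fun j y hy => ?_
  by_cases hj : j = i
  · subst hj
    rw [put_self, hf N hN y hy]; rfl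
  · rw [put_ne hj, hf' N hN j hj y hy]

end

end Vale.Agent.P141.PL.H315
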