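import Vale.Agent.P141.PL.H318.Reset

/-! One role of the walk: the sum over the nodes of the structured part is at most the cost of the
atoms times the energy. -/

namespace Vale.Agent.P141.PL.H315

open scoped BigOperators
open Vale.Agent.P141.H315 Vale.Agent.P141.PL.H318

variable {X ι ν : Type*} {g : Grid X}

theorem abs_lin_cF (S : CSys g ι) (Λ : (X → ℝ) →ₗ[ℝ] ℝ) (k : ℕ) (m : ι →₀ ℝ) :
    |Λ (cF S k m)| ≤ m.sum fun i c => |c| * |Λ (S.a k i)| := by
  unfold cF bsum Finsupp.sum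
  rw [map_sum]
  refine (Finset.abs_sum_le_sum_abs _ _).trans (Finset.sum_le_sum fun i _ => ?_)
  rw [map_smul, smul_eq_mul, abs_mul]

/-- The structured part, tested by a functional which only sees one cube: whole atoms, no
cut-off. -/
theorem abs_lin_struct (S : CSys g ι) (n : ℕ) (F : X → ℝ) {k : ℕ} (hk : k ≤ n + 1) (x : X)
    (Λ : (X → ℝ) →ₗ[ℝ] ℝ)
    (hloc : ∀ f f' : X → ℝ, (∀ y ∈ g.cube k x, f y = f' y) → Λ f = Λ f') :
    |Λ (F - RG S n F k)| ≤ ∑ j ∈ Finset.Ico k (n + 1),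
      (bm S j (RH S n F j) (g.cube j x)).sum fun i c => |c| * |Λ (S.a j i)| := by
  classical
  set D : ℕ → X → ℝ := fun j => if Alive S n F k j x then
    cF S j (bm S j (RH S n F j) (g.cube j x)) else 0 with hD
  have h1 : Λ (F - RG S n F k) = Λ (∑ j ∈ Finset.Ico k (n + 1), D j) := by
    refine hloc _ _ fun y hy => ?_
    rw [Pi.sub_apply, St_eq S n F hk y, Finset.sum_apply]
    refine Finset.sum_congr rfl fun j hj => ?_
    rw [Finset.mem_Ico] at hj
    have hy' : y ∈ g.cube j x := g.sub_le hj.1 x hy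
    simp only [hD, Alive_congr S n F hy]
    split_ifs
    · unfold birth
      rw [g.eq_of_mem j x y hy']
    · rfl
  rw [h1, map_sum]
  refine (Finset.abs_sum_le_sum_abs _ _).trans (Finset.sum_le_sum fun j _ => ?_)
  simp only [hD]
  split_ifs
  · exact abs_lin_cF S Λ j _
  · rw [map_zero, abs_zero]
    unfold Finsupp.sum
    exact Finset.sum_nonneg fun i _ => by positivity

/-- Sum over a family of cubes of one scale. -/
theorem sum_cubes_le (g : Grid X) [DecidableEq X] (k : ℕ) (𝒬 : Finset (Finset X))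
    (h𝒬 : ∀ Q ∈ 𝒬, ∃ x, Q = g.cube k x) (U : Finset X) (hU : ∀ Q ∈ 𝒬, Q ⊆ U)
    (φ : X → ℝ) (hφ : ∀ z ∈ U, 0 ≤ φ z) :
    ∑ Q ∈ 𝒬, ∑ z ∈ Q, φ z ≤ ∑ z ∈ U, φ z := by
  have hdis : Set.PairwiseDisjoint (𝒬 : Set (Finset X)) id := by
    intro Q hQ Q' hQ' hne
    obtain ⟨x, rfl⟩ := h𝒬 Q hQ
    obtain ⟨x', rfl⟩ := h𝒬 Q' hQ'
    refine Finset.disjoint_left.mpr fun z hz hz' => hne ?_
    rw [← g.eq_of_mem k x z hz, ← g.eq_of_mem k x' z hz']
  have h1 : ∑ Q ∈ 𝒬, ∑ z ∈ Q, φ z = ∑ z ∈ 𝒬.biUnion id, φ z :=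
    (Finset.sum_biUnion hdis).symm
  rw [h1]
  refine Finset.sum_le_sum_of_subset_of_nonneg ?_ fun z hz _ => hφ z hz
  rw [Finset.biUnion_subset]
  exact hU

/-- **One role.** -/
theorem role (S : CSys g ι) (n : ℕ) (F : X → ℝ) (𝒩 : Finset ν) (κ : ν → ℕ) (x : ν → X)
    (Λ : ν → (X → ℝ) →ₗ[ℝ] ℝ) (hκ : ∀ N ∈ 𝒩, κ N ≤ n)
    (hloc : ∀ N ∈ 𝒩, ∀ f f' : X → ℝ, (∀ y ∈ g.cube (κ N) (x N), f y = f' y) → Λ N f = Λ N f')
    {P : ℝ} (hP : 0 ≤ P)
    (hcost : ∀ l ≤ n, ∀ y : X, ∀ i, ∀ 𝒩' ⊆ 𝒩, (∀ N ∈ 𝒩', κ N ≤ l ∧ g.cube l (x N) = g.cube l y) →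
      ∑ N ∈ 𝒩', |Λ N (S.a l i)| ≤ P * S.W l (g.cube l y) i)
    (U : Finset X) (hU : ∀ N ∈ 𝒩, g.cube n (x N) ⊆ U) :
    ∑ N ∈ 𝒩, |Λ N (F - RG S n F (κ N))| ≤ P * (4 * dot U F F) := by
  classical
  set m : ℕ → Finset X → (ι →₀ ℝ) := fun j Q => bm S j (RH S n F j) Q with hm
  set A : ν → ℕ → ℝ := fun N j => (m j (g.cube j (x N))).sum fun i c => |c| * |Λ N (S.a j i)|
    with hA
  have hA0 : ∀ N j, 0 ≤ A N j := fun N j => by
    simp only [hA]
    unfold Finsupp.sum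
    exact Finset.sum_nonneg fun i _ => by positivity
  -- step 1
  have s1 : ∑ N ∈ 𝒩, |Λ N (F - RG S n F (κ N))| ≤
      ∑ j ∈ Finset.range (n + 1), ∑ N ∈ 𝒩.filter (fun N => κ N ≤ j), A N j := by
    calc ∑ N ∈ 𝒩, |Λ N (F - RG S n F (κ N))|
        ≤ ∑ N ∈ 𝒩, ∑ j ∈ Finset.Ico (κ N) (n + 1), A N j :=
          Finset.sum_le_sum fun N hN =>
            abs_lin_struct S n F (by have := hκ N hN; omega) (x N) (Λ N) (hloc N hN)
      _ = ∑ N ∈ 𝒩, ∑ j ∈ Finset.range (n + 1), if κ N ≤ j then A N j else 0 := by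
          refine Finset.sum_congr rfl fun N _ => ?_
          rw [← Finset.sum_filter]
          refine Finset.sum_congr ?_ fun _ _ => rfl
          ext j; simp only [Finset.mem_filter, Finset.mem_range, Finset.mem_Ico]; omega
      _ = _ := by
          rw [Finset.sum_comm]
          refine Finset.sum_congr rfl fun j _ => ?_
          rw [Finset.sum_filter]
  -- the union of the top cubes
  set U' : Finset X := 𝒩.biUnion fun N => g.cube n (x N) with hU'
  have hU'U : U' ⊆ U := Finset.biUnion_subset.mpr hU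
  -- step 2: one scale
  have s2 : ∀ j ∈ Finset.range (n + 1), ∑ N ∈ 𝒩.filter (fun N => κ N ≤ j), A N j ≤
      P * ∑ z ∈ U', den S j (RH S n F j) z := by
    intro j hj
    rw [Finset.mem_range] at hj
    set 𝒩j := 𝒩.filter (fun N => κ N ≤ j) with h𝒩j
    set 𝒬 : Finset (Finset X) := 𝒩j.image fun N => g.cube j (x N) with h𝒬
    have e1 : ∑ N ∈ 𝒩j, A N j = ∑ Q ∈ 𝒬, ∑ N ∈ 𝒩j.filter (fun N => g.cube j (x N) = Q), A N j :=
      (Finset.sum_fiberwise_of_maps_to (fun N hN => Finset.mem_image_of_mem _ hN) _).symm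
    have e2 : ∀ Q ∈ 𝒬, ∑ N ∈ 𝒩j.filter (fun N => g.cube j (x N) = Q), A N j ≤
        P * ∑ z ∈ Q, den S j (RH S n F j) z := by
      intro Q hQ
      obtain ⟨N₀, hN₀, rfl⟩ := Finset.mem_image.mp hQ
      set Q := g.cube j (x N₀) with hQd
      rw [sum_den]
      have e3 : ∑ N ∈ 𝒩j.filter (fun N => g.cube j (x N) = Q), A N j =
          ∑ i ∈ (m j Q).support, |m j Q i| *
            ∑ N ∈ 𝒩j.filter (fun N => g.cube j (x N) = Q), |Λ N (S.a j i)| := by
        simp only [Finset.mul_sum]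
        rw [Finset.sum_comm]
        refine Finset.sum_congr rfl fun N hN => ?_
        rw [Finset.mem_filter] at hN
        simp only [hA]
        rw [hN.2]
        rfl
      rw [e3]
      have e4 : P * cW S j Q (m j Q) = ∑ i ∈ (m j Q).support, |m j Q i| * (P * S.W j Q i) := by
        unfold cW bcost Finsupp.sum
        rw [Finset.mul_sum]
        exact Finset.sum_congr rfl fun i _ => by ring
      show _ ≤ P * cW S j Q (m j Q)
      rw [e4]
      refine Finset.sum_le_sum fun i _ => mul_le_mul_of_nonneg_left ?_ (abs_nonneg _)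
      refine hcost j (by omega) (x N₀) i _ ?_ ?_
      · exact (Finset.filter_subset _ _).trans (Finset.filter_subset _ _)
      · intro N hN
        rw [Finset.mem_filter, h𝒩j, Finset.mem_filter] at hN
        exact ⟨hN.1.2, hN.2⟩
    rw [e1]
    refine (Finset.sum_le_sum e2).trans ?_
    rw [← Finset.mul_sum]
    refine mul_le_mul_of_nonneg_left ?_ hP
    refine sum_cubes_le g j 𝒬 ?_ U' ?_ _ fun z _ => den_nonneg S j _ z
    · intro Q hQ
      obtain ⟨N, _, rfl⟩ := Finset.mem_image.mp hQ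
      exact ⟨_, rfl⟩
    · intro Q hQ
      obtain ⟨N, hN, rfl⟩ := Finset.mem_image.mp hQ
      rw [h𝒩j, Finset.mem_filter] at hN
      exact (g.sub_le (by omega : j ≤ n) (x N)).trans
        (Finset.subset_biUnion_of_mem (fun N => g.cube n (x N)) hN.1)
  -- step 3: the energies
  have s3 : ∑ z ∈ U', ∑ j ∈ Finset.range (n + 1), den S j (RH S n F j) z ≤
      ∑ z ∈ U', 4 * (F z * F z) := by
    set 𝒬 : Finset (Finset X) := 𝒩.image fun N => g.cube n (x N) with h𝒬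
    have hdis : Set.PairwiseDisjoint (𝒬 : Set (Finset X)) id := by
      intro Q hQ Q' hQ' hne
      obtain ⟨N, _, rfl⟩ := Finset.mem_image.mp hQ
      obtain ⟨N', _, rfl⟩ := Finset.mem_image.mp hQ'
      refine Finset.disjoint_left.mpr fun z hz hz' => hne ?_
      show g.cube n (x N) = g.cube n (x N')
      rw [← g.eq_of_mem n _ z hz, ← g.eq_of_mem n _ z hz']
    have e1 : U' = 𝒬.biUnion id := by
      ext z
      simp only [hU', h𝒬, Finset.mem_biUnion, Finset.mem_image, id]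
      constructor
      · rintro ⟨N, hN, hz⟩; exact ⟨_, ⟨N, hN, rfl⟩, hz⟩
      · rintro ⟨_, ⟨N, hN, rfl⟩, hz⟩; exact ⟨N, hN, hz⟩
    rw [e1, Finset.sum_biUnion hdis, Finset.sum_biUnion hdis]
    refine Finset.sum_le_sum fun Q hQ => ?_
    obtain ⟨N, _, rfl⟩ := Finset.mem_image.mp hQ
    have h1 := RG_carleson S n F (Nat.zero_le n) le_rfl le_rfl (x N)
    have h2 := dot_self_nonneg (g.cube n (x N)) (RG S n F 0)
    show ∑ z ∈ g.cube n (x N), _ ≤ ∑ z ∈ g.cube n (x N), _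
    rw [Finset.sum_comm, ← Finset.mul_sum]
    have h3 : Finset.Ico 0 (n + 1) = Finset.range (n + 1) := by
      ext j; simp
    rw [h3] at h1
    unfold dot at h1 h2
    linarith
  calc ∑ N ∈ 𝒩, |Λ N (F - RG S n F (κ N))|
      ≤ ∑ j ∈ Finset.range (n + 1), P * ∑ z ∈ U', den S j (RH S n F j) z :=
        s1.trans (Finset.sum_le_sum s2)
    _ = P * ∑ z ∈ U', ∑ j ∈ Finset.range (n + 1), den S j (RH S n F j) z := by
        rw [← Finset.mul_sum, Finset.sum_comm]
    _ ≤ P * ∑ z ∈ U', 4 * (F z * F z) := mul_le_mul_of_nonneg_left s3 hP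
    _ ≤ P * ∑ z ∈ U, 4 * (F z * F z) := by
        refine mul_le_mul_of_nonneg_left ?_ hP
        exact Finset.sum_le_sum_of_subset_of_nonneg hU'U fun z _ _ => by
          have := mul_self_nonneg (F z); linarith
    _ = _ := by rw [← Finset.mul_sum]; rfl

end Vale.Agent.P141.PL.H315
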